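import Crest.Agent.H6.SC6

/-! Lipschitz-free spaces, part A: coloured graphs of large girth without common cycles. -/

namespace Crest.Agent.H5.LF

open FreeGroup Crest.Agent.H6.SC

/-- inverse letter -/
def iv {I : Type} (d : I × Bool) : I × Bool := (d.1, !d.2)

@[simp] theorem iv_iv {I : Type} (d : I × Bool) : iv (iv d) = d := by simp [iv]

theorem mk_iv {I : Type} (d : I × Bool) : mk [iv d] = (mk [d])⁻¹ := by
  rw [inv_mk, invRev_single]; rfl

theorem mk_cons {I : Type} (d : I × Bool) (l : List (I × Bool)) : mk (d :: l) = mk [d] * mk l :=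
  rfl

theorem exists_mv (I : Type) [Fintype I] [DecidableEq I] (g N : ℕ)
    (hN : N = 2 * (2 * Fintype.card I + 1) ^ g + 1) :
    ∃ mv : Fin N → I × Bool → Fin N, (∀ v d, mv (mv v d) (iv d) = v) ∧
        ∀ v l, IsReduced l → l ≠ [] → l.foldl mv v = v → g ≤ l.length := by
  obtain ⟨E, hE, hF⟩ := exists_full (V := Fin N) (Y := Unit)
    (link := fun _ => (Finset.univ : Finset (I × Bool))) (lay := fun _ => ()) (g := g)
    (w := 2 * Fintype.card I) (fun v => by simp [mul_comm]) (fun y j => by simp [slot])
    (fun y d => by simp [slot, hN])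
  choose mv hmv using fun v d => hF v d (Finset.mem_univ _)
  refine ⟨mv, fun v d => hE.fold _ _ _ _ (hmv _ _) ((toLG E hE.fold).symm (hmv v d)),
    fun v l h1 h2 h3 => hE.gir v l h1 h2 ?_⟩
  have : ∀ (l : List (I × Bool)) v, Walk (St E) v l (l.foldl mv v) := by
    intro l
    induction l with
    | nil => intro v; rfl
    | cons d l ih => intro v; exact ⟨_, hmv v d, ih _⟩
  have h := this l v
  rwa [h3] at h

/-- residual finiteness of free groups, with a radius -/
theorem exists_quot (I : Type) [Fintype I] [DecidableEq I] (R : ℕ) :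
    ∃ (N : ℕ) (κ : FreeGroup I →* Equiv.Perm (Fin N)), ∀ g, g.norm ≤ R → κ g = 1 → g = 1 := by
  obtain ⟨mv, h1, h2⟩ := exists_mv I (R + 1) _ rfl
  let κ : FreeGroup I →* Equiv.Perm _ := FreeGroup.lift fun i =>
    ⟨fun v => mv v (i, false), fun v => mv v (i, true), fun v => h1 v (i, false),
      fun v => h1 v (i, true)⟩
  have key : ∀ (l : List (I × Bool)) v, (κ (mk l))⁻¹ v = l.foldl mv v := by
    intro l
    induction l with
    | nil => intro v; rw [← one_eq_mk]; simp
    | cons d l ih =>
      intro v
      rw [mk_cons, _root_.map_mul, mul_inv_rev, Equiv.Perm.mul_apply, ih, List.foldl_cons]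
      congr 1
      obtain ⟨i, b⟩ := d
      cases b <;> simp [κ]
  refine ⟨_, κ, fun g hg h => ?_⟩
  by_contra hne
  have := h2 0 g.toWord isReduced_toWord (fun e => hne (toWord_eq_nil_iff.1 e))
    (by rw [← key, mk_toWord, h]; rfl)
  have : g.norm = g.toWord.length := rfl
  omega

abbrev Dir : Type := Fin 2 × Bool
abbrev Al : Type := Fin 2 × Fin 40
abbrev G : Type := FreeGroup Al

section raw
variable {V : Type} (mv : V → Dir → V)

/-- the edge used by a step -/
def ed (v : V) (d : Dir) : V × Fin 2 := (if d.2 then v else mv v d, d.1)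

/-- the edges used by a walk -/
def eds : V → List Dir → List (V × Fin 2)
  | _, [] => []
  | v, d :: l => ed mv v d :: eds (mv v d) l

theorem length_eds : ∀ (l : List Dir) (v : V), (eds mv v l).length = l.length
  | [], _ => rfl
  | _ :: l, _ => congrArg (· + 1) (length_eds l _)

theorem mem_eds {e : V × Fin 2} : ∀ {l : List Dir} {v : V}, e ∈ eds mv v l →
    ∃ p d s, l = p ++ d :: s ∧ e = ed mv (p.foldl mv v) d
  | [], _, h => by simp [eds] at h
  | d :: l, v, h => by
    rcases List.mem_cons.1 h with h | h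
    · exact ⟨[], d, l, rfl, h⟩
    · obtain ⟨p, d', s, e1, e2⟩ := mem_eds h
      exact ⟨d :: p, d', s, by rw [e1]; rfl, e2⟩

variable {mv}

theorem ed_iv (hmv : ∀ v d, mv (mv v d) (iv d) = v) (v : V) (d : Dir) :
    ed mv (mv v d) (iv d) = ed mv v d := by
  obtain ⟨i, b⟩ := d
  have := hmv v (i, b)
  cases b <;> simp_all [ed, iv]

theorem nodup_eds (hmv : ∀ v d, mv (mv v d) (iv d) = v) {g : ℕ}
    (hg : ∀ v l, IsReduced l → l ≠ [] → l.foldl mv v = v → g ≤ l.length) :
    ∀ (l : List Dir) (v : V), IsReduced l → l.length ≤ g → (eds mv v l).Nodup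
  | [], _, _, _ => List.nodup_nil
  | d :: l, v, h, hl => by
    refine List.nodup_cons.2 ⟨fun hm => ?_, nodup_eds hmv hg l _ (red_right (l₁ := [d]) h)
      (by simp at hl; omega)⟩
    obtain ⟨p, d', s, rfl, e⟩ := mem_eds mv hm
    simp only [List.length_cons, List.length_append] at hl
    have inj : ∀ x y d, mv x d = mv y d → x = y := fun x y d k => by
      rw [← hmv x d, k, hmv]
    have hr : IsReduced (d :: p) := red_left (l₂ := d' :: s) h
    by_cases hd : d' = d
    · subst hd
      have : p.foldl mv (mv v d') = v := by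
        obtain ⟨i, b⟩ := d'
        cases b
        · exact inj _ _ (i, false) (by simpa [ed] using e.symm)
        · simpa [ed] using e.symm
      have := hg v (d' :: p) hr (by simp) this
      simp at this; omega
    · have hd' : d' = iv d := by
        obtain ⟨i, b⟩ := d
        obtain ⟨i', b'⟩ := d'
        have : i = i' := congrArg Prod.snd e
        subst this
        cases b <;> cases b' <;> simp_all [iv]
      subst hd'
      rw [← ed_iv hmv v d] at e
      have : p.foldl mv (mv v d) = mv v d := by
        obtain ⟨i, b⟩ := d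
        cases b
        · simpa [ed, iv] using e.symm
        · exact inj _ _ (i, false) (by simpa [ed, iv] using e.symm)
      by_cases hp : p = []
      · subst hp
        exact not_red_cancel [] s d h
      · have := hg _ p (red_right (l₁ := [d]) hr) hp this
        omega

end raw

theorem card_col {E : Type} [Fintype E] [DecidableEq E] : ∀ (l : List E), l.Nodup →
    ∀ t : List (Fin 40), (Finset.univ.filter fun c : E → Fin 40 => l.map c = t).card *
      40 ^ l.length ≤ Fintype.card (E → Fin 40)
  | [], _, t => by rw [List.length_nil, pow_zero, mul_one]; exact Finset.card_le_univ _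
  | e :: l, h, t => by
    obtain ⟨h1, h2⟩ := List.nodup_cons.1 h
    refine le_trans ?_ (card_col l h2 t.tail)
    rw [List.length_cons, pow_succ', ← mul_assoc]
    refine Nat.mul_le_mul_right _ ?_
    have : (Finset.univ.filter fun c : E → Fin 40 => (e :: l).map c = t).card * 40 =
        ((Finset.univ.filter fun c : E → Fin 40 => (e :: l).map c = t) ×ˢ
          (Finset.univ : Finset (Fin 40))).card := by simp
    rw [this]
    refine Finset.card_le_card_of_injOn (fun x => Function.update x.1 e x.2) ?_ ?_
    · rintro ⟨c, k⟩ hx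
      simp only [Finset.coe_product, Set.mem_prod, Finset.coe_filter, Finset.mem_univ, true_and,
        Set.mem_ofPred_eq] at hx ⊢
      rw [← hx.1, List.map_cons, List.tail_cons]
      exact List.map_congr_left fun x hx' => Function.update_of_ne (by rintro rfl; exact h1 hx') _ _
    · rintro ⟨c, k⟩ hx ⟨c', k'⟩ hx' hh
      simp only [Finset.coe_product, Set.mem_prod, Finset.coe_filter, Finset.mem_univ, true_and,
        Set.mem_ofPred_eq] at hx hx' hh
      have e1 : c e = c' e := by
        have := hx.1.trans hx'.1.symm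
        simp only [List.map_cons, List.cons.injEq] at this
        exact this.1
      have e2 : k = k' := by simpa using congrFun hh e
      refine Prod.ext (funext fun x => ?_) e2
      by_cases hxe : x = e
      · rw [hxe]; exact e1
      · simpa [Function.update_of_ne hxe] using congrFun hh x

/-- a coloured `4`-regular graph -/
structure CS where
  N : ℕ
  pos : 0 < N
  mv : Fin N → Dir → Fin N
  mv_mv : ∀ v d, mv (mv v d) (iv d) = v
  c : Fin N × Fin 2 → Fin 40

/-- no common nontrivial reduced closed walk -/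
def Dj (S S' : CS) : Prop := ∀ v z l, IsReduced l → l.foldl S.mv v = v →
  (eds S.mv v l).map S.c = (eds S'.mv z l).map S'.c → l = []

theorem eds_take {V : Type} (mv : V → Dir → V) : ∀ (l : List Dir) (v : V) (n : ℕ),
    eds mv v (l.take n) = (eds mv v l).take n
  | [], _, _ => by simp [eds]
  | _ :: _, _, 0 => by simp [eds]
  | d :: l, v, n + 1 => by simp [eds, eds_take mv l]

theorem exists_new (T : List CS) : ∃ S : CS, ∀ S' ∈ T, Dj S S' := by
  classical
  obtain ⟨M, B, hM, hB⟩ : ∃ (M : ℕ) (B : List Dir → Finset (List (Fin 40))),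
      (∀ l, (B l).card ≤ M) ∧ ∀ S' ∈ T, ∀ z l, (eds S'.mv z l).map S'.c ∈ B l := by
    induction T with
    | nil => exact ⟨0, fun _ => ∅, by simp, by simp⟩
    | cons S T ih =>
      obtain ⟨M, B, hM, hB⟩ := ih
      refine ⟨S.N + M, fun l => (Finset.univ.image fun z => (eds S.mv z l).map S.c) ∪ B l,
        fun l => (Finset.card_union_le _ _).trans (add_le_add (Finset.card_image_le.trans
          (by simp)) (hM l)), fun S' h z l => ?_⟩
      rcases List.mem_cons.1 h with rfl | h
      · exact Finset.mem_union_left _ (Finset.mem_image_of_mem _ (Finset.mem_univ _))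
      · exact Finset.mem_union_right _ (hB S' h z l)
  obtain ⟨N, hN⟩ : ∃ N, N = 2 * 5 ^ (3 * M) + 1 := ⟨_, rfl⟩
  obtain ⟨mv, h1, h2⟩ := exists_mv (Fin 2) (3 * M) N (by simp [hN])
  let bad : Finset (Fin N × Fin 2 → Fin 40) :=
    (Finset.univ : Finset (Fin N × List.Vector Dir (3 * M))).biUnion fun x =>
      if IsReduced x.2.1 then (B x.2.1).biUnion fun t =>
        Finset.univ.filter fun c => (eds mv x.1 x.2.1).map c = t else ∅
  have hbad : bad.card * 40 ^ (3 * M) ≤
      N * 4 ^ (3 * M) * (M * Fintype.card (Fin N × Fin 2 → Fin 40)) := by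
    refine (Nat.mul_le_mul_right _ Finset.card_biUnion_le).trans ?_
    rw [Finset.sum_mul]
    refine (Finset.sum_le_card_nsmul _ _ (M * Fintype.card (Fin N × Fin 2 → Fin 40))
      fun x _ => ?_).trans (by simp [card_vector])
    split_ifs with hx
    · refine (Nat.mul_le_mul_right _ Finset.card_biUnion_le).trans ?_
      rw [Finset.sum_mul]
      refine (Finset.sum_le_card_nsmul _ _ (Fintype.card (Fin N × Fin 2 → Fin 40))
        fun t _ => ?_).trans (Nat.mul_le_mul_right _ (hM _))
      have := card_col _ (nodup_eds h1 h2 x.2.1 x.1 hx x.2.2.le) t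
      rwa [length_eds, x.2.2] at this
    · simp
  have hlt : N * 4 ^ (3 * M) * M < 40 ^ (3 * M) := by
    have e1 : N ≤ 3 * 5 ^ (3 * M) := by
      have : 0 < 5 ^ (3 * M) := by positivity
      omega
    have e2 : 3 * M < 2 ^ (3 * M) := Nat.lt_two_pow_self
    have e3 : 40 ^ (3 * M) = 5 ^ (3 * M) * 4 ^ (3 * M) * 2 ^ (3 * M) := by
      rw [← mul_pow, ← mul_pow]; rfl
    calc N * 4 ^ (3 * M) * M ≤ 3 * 5 ^ (3 * M) * 4 ^ (3 * M) * M := by gcongr
      _ = 5 ^ (3 * M) * 4 ^ (3 * M) * (3 * M) := by ring
      _ < _ := by rw [e3]; gcongr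
  obtain ⟨c, -, hc⟩ : ∃ c ∈ (Finset.univ : Finset (Fin N × Fin 2 → Fin 40)), c ∉ bad := by
    apply Finset.exists_mem_notMem_of_card_lt_card
    rw [Finset.card_univ]
    have hp : 0 < Fintype.card (Fin N × Fin 2 → Fin 40) := Fintype.card_pos
    by_contra hle
    have := (Nat.mul_le_mul_right (40 ^ (3 * M)) (not_lt.1 hle)).trans hbad
    rw [← mul_assoc, mul_comm] at this
    exact absurd (Nat.le_of_mul_le_mul_right this hp) (not_le.2 hlt)
  refine ⟨⟨N, by omega, mv, h1, c⟩, fun S' hS' v z l hl hcl he => ?_⟩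
  by_contra hne
  have hlen := h2 v l hl hne hcl
  refine hc (Finset.mem_biUnion.2 ⟨(v, ⟨l.take (3 * M), by simp [hlen]⟩), Finset.mem_univ _, ?_⟩)
  have hr : IsReduced (l.take (3 * M)) := hl.infix (List.take_prefix _ _).isInfix
  simp only [hr, if_true]
  refine Finset.mem_biUnion.2 ⟨_, hB S' hS' z _, Finset.mem_filter.2 ⟨Finset.mem_univ _, ?_⟩⟩
  simp only [eds_take, List.map_take]
  exact congrArg _ he

theorem exists_seq : ∃ S : ℕ → CS, ∀ i n, i < n → Dj (S n) (S i) := by
  choose F hF using exists_new
  let T : ℕ → List CS := fun n => Nat.rec [] (fun _ T => F T :: T) n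
  refine ⟨fun n => F (T n), fun i n h => hF _ _ ?_⟩
  induction h with
  | refl => exact List.mem_cons_self
  | step _ ih => exact List.mem_cons_of_mem _ ih

end Crest.Agent.H5.LF
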