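import Crest.Agent.H5.LF.A

/-! Lipschitz-free spaces, part B: the potential on pairs of layers. -/

namespace Crest.Agent.H5.LF

open FreeGroup Crest.Agent.H6.SC

namespace CS
variable (S : CS)

/-- the letter read along a step -/
def lt (v : Fin S.N) (d : Dir) : Al × Bool := ((d.1, S.c (ed S.mv v d)), d.2)

/-- the word read along a walk -/
def wd : Fin S.N → List Dir → List (Al × Bool)
  | _, [] => []
  | v, d :: l => S.lt v d :: wd (S.mv v d) l

theorem lt_iv (v : Fin S.N) (d : Dir) : S.lt (S.mv v d) (iv d) = iv (S.lt v d) := by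
  unfold lt
  rw [ed_iv S.mv_mv]; rfl

theorem wd_dir : ∀ (l : List Dir) (v : Fin S.N), (S.wd v l).map (fun a => (a.1.1, a.2)) = l
  | [], _ => rfl
  | _ :: l, _ => congrArg (List.cons _) (wd_dir l _)

theorem wd_col : ∀ (l : List Dir) (v : Fin S.N),
    (S.wd v l).map (fun a => a.1.2) = (eds S.mv v l).map S.c
  | [], _ => rfl
  | _ :: l, _ => congrArg (List.cons _) (wd_col l _)

theorem wd_append : ∀ (l l' : List Dir) (v : Fin S.N),
    S.wd v (l ++ l') = S.wd v l ++ S.wd (l.foldl S.mv v) l'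
  | [], _, _ => rfl
  | _ :: l, l', _ => congrArg (List.cons _) (wd_append l l' _)

theorem wd_red : ∀ (l : List Dir) (v : Fin S.N), IsReduced l → IsReduced (S.wd v l)
  | [], _, _ => IsReduced.nil
  | [_], _, _ => IsReduced.singleton
  | d :: d' :: l, v, h => by
    rw [isReduced_cons_cons] at h
    have ih := wd_red (d' :: l) (S.mv v d) h.2
    exact isReduced_cons_cons.2 ⟨fun e => h.1 (congrArg (fun x : Al => x.1) e), ih⟩

/-- closed walks with a given label -/
def Cl (v : Fin S.N) (g : G) : Prop := ∃ l, l.foldl S.mv v = v ∧ FreeGroup.mk (S.wd v l) = g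

theorem Cl.red {v : Fin S.N} {g : G} (h : S.Cl v g) :
    ∃ l, IsReduced l ∧ l.foldl S.mv v = v ∧ FreeGroup.mk (S.wd v l) = g := by
  obtain ⟨l, h1, h2⟩ := h
  induction hn : l.length using Nat.strong_induction_on generalizing l with
  | _ n ih =>
    by_cases hr : IsReduced l
    · exact ⟨l, hr, h1, h2⟩
    · obtain ⟨l₁, l₂, d, rfl⟩ := exists_cancel_of_not_red hr
      have e := S.mv_mv (l₁.foldl S.mv v) d
      refine ih (l₁ ++ l₂).length (by simp at hn ⊢; omega) (l₁ ++ l₂) ?_ ?_ rfl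
      · rw [List.foldl_append] at h1 ⊢
        rwa [List.foldl_cons, List.foldl_cons, show ((d.1, !d.2) : Dir) = iv d from rfl, e] at h1
      · rw [← h2, wd_append, wd_append, ← mul_mk, ← mul_mk]
        congr 1
        change _ = FreeGroup.mk (S.lt _ d :: S.lt _ (iv d) :: S.wd (S.mv _ (iv d)) l₂)
        rw [e, lt_iv, mk_cons (S.lt _ d), mk_cons (iv _), mk_iv, mul_inv_cancel_left]

theorem Cl.move {v : Fin S.N} {g : G} (h : S.Cl v g) (d : Dir) :
    S.Cl (S.mv v d) ((FreeGroup.mk [S.lt v d])⁻¹ * g * FreeGroup.mk [S.lt v d]) := by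
  obtain ⟨l, h1, h2⟩ := h
  refine ⟨iv d :: (l ++ [d]), ?_, ?_⟩
  · rw [List.foldl_cons, S.mv_mv, List.foldl_append, h1]; rfl
  · change FreeGroup.mk (S.lt _ (iv d) :: S.wd (S.mv _ (iv d)) (l ++ [d])) = _
    rw [S.mv_mv, lt_iv, mk_cons, mk_iv, wd_append, h1, ← mul_mk, h2, mul_assoc]; rfl

theorem wd_head {v : Fin S.N} {l : List Dir} {a} (h : a ∈ (S.wd v l).head?) : ∃ d, S.lt v d = a := by
  cases l with
  | nil => simp [wd] at h
  | cons d l => exact ⟨d, by simpa [wd] using h⟩

theorem wd_last {v : Fin S.N} {l : List Dir} (hl : l.foldl S.mv v = v) {a}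
    (h : a ∈ (S.wd v l).getLast?) : ∃ d, S.lt v d = iv a := by
  rcases List.eq_nil_or_concat' l with rfl | ⟨l', d, rfl⟩
  · simp [wd] at h
  · rw [wd_append] at h
    rw [List.foldl_append] at hl
    refine ⟨iv d, ?_⟩
    have e : a = S.lt (l'.foldl S.mv v) d := by simpa [wd] using h.symm
    rw [e, ← lt_iv]
    exact congrArg (fun x => S.lt x (iv d)) hl.symm

end CS

theorem conj_disj {S S' : CS} (h : Dj S S') : ∀ (n : ℕ) (u : G), u.norm = n →
    ∀ v z α, S.Cl v α → S'.Cl z (u⁻¹ * α * u) → α = 1 := by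
  intro n
  induction n using Nat.strong_induction_on with
  | _ n ih =>
  intro u hu v z α hα hβ
  by_cases h1 : u = 1
  · subst h1
    simp only [inv_one, one_mul, mul_one] at hβ
    obtain ⟨l, r1, c1, e1⟩ := hα.red
    obtain ⟨l', r2, c2, e2⟩ := hβ.red
    have e := reduce.sound (L₁ := S.wd v l) (L₂ := S'.wd z l') (e1.trans e2.symm)
    rw [(S.wd_red l v r1).reduce_eq, (S'.wd_red l' z r2).reduce_eq] at e
    have e3 : l = l' := by rw [← S.wd_dir l v, e, S'.wd_dir]
    subst e3
    have := h v z l r1 c1 (by rw [← S.wd_col, e, S'.wd_col])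
    subst this
    rw [← e1]; rfl
  have hne : u.toWord ≠ [] := fun e => h1 (toWord_eq_nil_iff.1 e)
  have hn : u.toWord.length = n := hu
  by_cases hA : ∃ d, S.lt v d ∈ u.toWord.head?
  · obtain ⟨d, hd⟩ := hA
    obtain ⟨w, hw⟩ : ∃ w, u.toWord = S.lt v d :: w := by
      cases hx : u.toWord with
      | nil => exact absurd hx hne
      | cons a w => rw [hx] at hd; exact ⟨w, by simpa using hd⟩
    have e : u = mk [S.lt v d] * mk w := by rw [← mk_cons, ← hw, mk_toWord]
    have := ih (mk w).norm (by have := norm_mk_le (L₁ := w); rw [hw] at hn; simp at hn; omega)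
      (mk w) rfl _ z _ (CS.Cl.move S hα d) (by rw [e] at hβ; convert hβ using 1; group)
    rwa [mul_assoc, inv_mul_eq_one, eq_comm, mul_eq_right] at this
  by_cases hB : ∃ d, iv (S'.lt z d) ∈ u.toWord.getLast?
  · obtain ⟨d, hd⟩ := hB
    obtain ⟨w, a, hw⟩ := (List.eq_nil_or_concat' u.toWord).resolve_left hne
    have ha : a = iv (S'.lt z d) := by rw [hw] at hd; simpa using hd
    have e : u = mk w * (mk [S'.lt z d])⁻¹ := by rw [← mk_iv, mul_mk, ← ha, ← hw, mk_toWord]
    exact ih (mk w).norm (by have := norm_mk_le (L₁ := w); rw [hw] at hn; simp at hn; omega)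
      (mk w) rfl v _ _ hα (by convert CS.Cl.move S' hβ d using 1; rw [e]; group)
  obtain ⟨l, r1, c1, e1⟩ := hα.red
  obtain ⟨l', r2, c2, e2⟩ := hβ.red
  have k1 : IsReduced (S.wd v l ++ u.toWord) := red_append (S.wd_red l v r1) isReduced_toWord
    fun a ha b hb hab => by
      obtain ⟨d, hd⟩ := S.wd_last c1 ha
      exact hA ⟨d, by rw [hd]; rw [hab] at hb; exact hb⟩
  have k2 : IsReduced (u.toWord ++ S'.wd z l') := red_append isReduced_toWord (S'.wd_red l' z r2)
    fun a ha b hb hab => by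
      obtain ⟨d, hd⟩ := S'.wd_head hb
      refine hB ⟨d, ?_⟩
      rw [hd, hab]
      exact (iv_iv a).symm ▸ ha
  have e := reduce.sound (L₁ := S.wd v l ++ u.toWord) (L₂ := u.toWord ++ S'.wd z l') (by
    rw [← mul_mk, ← mul_mk, e1, e2, mk_toWord]; group)
  rw [k1.reduce_eq, k2.reduce_eq] at e
  cases l with
  | nil => rw [← e1]; rfl
  | cons d l =>
    refine (hA ⟨d, ?_⟩).elim
    have := congrArg List.head? e
    rw [List.head?_append_of_ne_nil _ hne] at this
    rw [← this]; rfl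

theorem norm_step (a : G) (x : Al × Bool) :
    (a * mk [x]).norm = a.norm + 1 ∨ ((a * mk [x]).norm < a.norm ∧ iv x ∈ a.toWord.getLast?) := by
  by_cases h : iv x ∈ a.toWord.getLast?
  · refine Or.inr ⟨?_, h⟩
    have hne : a.toWord ≠ [] := fun e => by simp [e] at h
    obtain ⟨w, b, hw⟩ := (List.eq_nil_or_concat' a.toWord).resolve_left hne
    have hb : b = iv x := by rw [hw] at h; simpa using h
    have e : a * mk [x] = mk w := by
      conv_lhs => rw [← mk_toWord (x := a), hw, ← mul_mk, hb, mk_iv, inv_mul_cancel_right]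
    have h1 := norm_mk_le (L₁ := w)
    have h2 : a.norm = a.toWord.length := rfl
    rw [e, h2, hw]; simp; omega
  · left
    have : IsReduced (a.toWord ++ [x]) := red_append isReduced_toWord IsReduced.singleton
      fun y hy b hb hab => by
        apply h
        simp only [List.head?_cons, Option.mem_def, Option.some.injEq] at hb
        rw [hb, hab]
        exact (iv_iv y).symm ▸ hy
    change (a * mk [x]).toWord.length = a.toWord.length + 1
    conv_lhs => rw [← mk_toWord (x := a), mul_mk, toWord_mk, this.reduce_eq]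
    simp

/-- layers with a potential on pairs -/
structure Sys where
  Y : Type
  cnt : Countable Y
  mv : Y → Dir → Y
  lab : Y → Dir → G
  lay : Y → Option ℕ
  o : Y
  A : Y → Y → G → G
  lay_o : lay o = none
  mv_mv : ∀ y d, mv (mv y d) (iv d) = y
  lab_iv : ∀ y d, lab (mv y d) (iv d) = (lab y d)⁻¹
  norm_lab : ∀ y d, (lab y d).norm ≤ 1
  lay_mv : ∀ y d, lay (mv y d) = lay y
  fin : ∀ n, {y | lay y = some n}.Finite
  ne : ∀ n, ∃ y, lay y = some n
  ne_norm : ∀ w n, lay w = some n → ∀ (a : G) d, (a * lab w d).norm ≠ a.norm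
  uniq : ∀ w n, lay w = some n → ∀ (a : G) d d', (a * lab w d).norm < a.norm →
    (a * lab w d').norm < a.norm → d = d'
  A_left : ∀ w y u d, lay w ≠ lay y → A (mv w d) y ((lab w d)⁻¹ * u) = A w y u * lab w d
  A_right : ∀ w y u d, lay w ≠ lay y → A w (mv y d) (u * lab y d) = A w y u

section pth
variable {Y : Type} (mv : Y → Dir → Y) (lab : Y → Dir → G)

/-- labelled paths -/
inductive Pth : Y → G → Y → Prop
  | nil (y : Y) : Pth y 1 y
  | cons (y : Y) (d : Dir) {g : G} {y' : Y} : Pth (mv y d) g y' → Pth y (lab y d * g) y'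

variable {mv lab}

theorem Pth.trans {x y z : Y} {g h : G} (p : Pth mv lab x g y) (q : Pth mv lab y h z) :
    Pth mv lab x (g * h) z := by
  induction p with
  | nil => rwa [one_mul]
  | cons y d _ ih => rw [mul_assoc]; exact .cons y d (ih q)

theorem Pth.single (y : Y) (d : Dir) : Pth mv lab y (lab y d) (mv y d) := by
  simpa using Pth.cons (lab := lab) y d (.nil (mv y d))

theorem Pth.symm (h1 : ∀ y d, mv (mv y d) (iv d) = y)
    (h2 : ∀ y d, lab (mv y d) (iv d) = (lab y d)⁻¹) {x y : Y} {g : G} (p : Pth mv lab x g y) :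
    Pth mv lab y g⁻¹ x := by
  induction p with
  | nil => rw [inv_one]; exact .nil _
  | cons y d _ ih =>
    rw [mul_inv_rev]
    refine ih.trans ?_
    have := Pth.single (mv := mv) (lab := lab) (mv y d) (iv d)
    rwa [h1, h2] at this

theorem exists_pot (h1 : ∀ y d, mv (mv y d) (iv d) = y)
    (h2 : ∀ y d, lab (mv y d) (iv d) = (lab y d)⁻¹) (lay : Y → Option ℕ)
    (h3 : ∀ y d, lay (mv y d) = lay y)
    (h4 : ∀ w y u α, lay w ≠ lay y → Pth mv lab w α w → Pth mv lab y (u⁻¹ * α * u) y → α = 1) :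
    ∃ A : Y → Y → G → G,
      (∀ w y u d, lay w ≠ lay y → A (mv w d) y ((lab w d)⁻¹ * u) = A w y u * lab w d) ∧
      ∀ w y u d, lay w ≠ lay y → A w (mv y d) (u * lab y d) = A w y u := by
  let s : Setoid (Y × Y × G) :=
    { r := fun p q => ∃ α β, Pth mv lab p.1 α q.1 ∧ Pth mv lab p.2.1 β q.2.1 ∧
        q.2.2 = α⁻¹ * p.2.2 * β
      iseqv := ⟨fun p => ⟨1, 1, .nil _, .nil _, by simp⟩,
        fun ⟨α, β, a, b, c⟩ => ⟨α⁻¹, β⁻¹, a.symm h1 h2, b.symm h1 h2, by rw [c]; group⟩,
        fun ⟨α, β, a, b, c⟩ ⟨α', β', a', b', c'⟩ =>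
          ⟨α * α', β * β', a.trans a', b.trans b', by rw [c', c]; group⟩⟩ }
  have hex : ∀ q, ∃ α β, Pth mv lab (Quotient.mk s q).out.1 α q.1 ∧
      Pth mv lab (Quotient.mk s q).out.2.1 β q.2.1 ∧
        q.2.2 = α⁻¹ * (Quotient.mk s q).out.2.2 * β := fun q => Quotient.mk_out (s := s) q
  choose A B hA hB hu using hex
  have uq : ∀ (p q : Y × Y × G) α β α' β', lay q.1 ≠ lay q.2.1 → Pth mv lab p.1 α q.1 →
      Pth mv lab p.2.1 β q.2.1 → q.2.2 = α⁻¹ * p.2.2 * β → Pth mv lab p.1 α' q.1 →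
      Pth mv lab p.2.1 β' q.2.1 → q.2.2 = α'⁻¹ * p.2.2 * β' → α = α' := by
    intro p q α β α' β' hl a b c a' b' c'
    have := h4 q.1 q.2.1 q.2.2 (α⁻¹ * α') hl ((a.symm h1 h2).trans a') (by
      convert (b.symm h1 h2).trans b' using 1
      nth_rw 2 [c']
      rw [c]; group)
    exact inv_mul_eq_one.1 this
  refine ⟨fun w y u => A (w, y, u), fun w y u d hl => ?_, fun w y u d hl => ?_⟩
  · have e : Quotient.mk s (mv w d, y, (lab w d)⁻¹ * u) = Quotient.mk s (w, y, u) :=
      (Quotient.sound (s := s) ⟨lab w d, 1, .single w d, .nil y, by simp⟩).symm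
    refine uq _ (mv w d, y, (lab w d)⁻¹ * u) _ _ _ (B (w, y, u)) (by simpa [h3] using hl)
      (hA _) (hB _) (hu _) ?_ ?_ ?_
    · rw [e]; exact (hA (w, y, u)).trans (.single w d)
    · rw [e]; exact hB (w, y, u)
    · rw [e]
      have := hu (w, y, u)
      simp only at this ⊢
      nth_rw 1 [this]
      group
  · have e : Quotient.mk s (w, mv y d, u * lab y d) = Quotient.mk s (w, y, u) :=
      (Quotient.sound (s := s) ⟨1, lab y d, .nil w, .single y d, by simp⟩).symm
    refine uq _ (w, mv y d, u * lab y d) _ _ _ (B (w, y, u) * lab y d) (by simpa [h3] using hl)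
      (hA _) (hB _) (hu _) ?_ ?_ ?_
    · rw [e]; exact hA (w, y, u)
    · rw [e]; exact (hB (w, y, u)).trans (.single y d)
    · rw [e]
      have := hu (w, y, u)
      simp only at this ⊢
      nth_rw 1 [this]
      group

end pth

theorem exists_sys : Nonempty Sys := by
  obtain ⟨S, hS⟩ := exists_seq
  let Y := Option (Σ n, Fin (S n).N)
  let mv : Y → Dir → Y := fun y d => y.map fun p => ⟨p.1, (S p.1).mv p.2 d⟩
  let lab : Y → Dir → G := fun y d => y.elim 1 fun p => mk [(S p.1).lt p.2 d]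
  let lay : Y → Option ℕ := fun y => y.map Sigma.fst
  have h1 : ∀ y d, mv (mv y d) (iv d) = y := by
    rintro (_ | ⟨n, v⟩) d
    · rfl
    · simp [mv, CS.mv_mv]
  have h2 : ∀ y d, lab (mv y d) (iv d) = (lab y d)⁻¹ := by
    rintro (_ | ⟨n, v⟩) d
    · simp [lab, mv]
    · simp [lab, mv, CS.lt_iv, mk_iv]
  have h3 : ∀ y d, lay (mv y d) = lay y := by
    rintro (_ | ⟨n, v⟩) d <;> rfl
  have p0 : ∀ y g y', Pth mv lab y g y' → y = none → g = 1 := by
    intro y g y' p
    induction p with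
    | nil => exact fun _ => rfl
    | cons y d _ ih => rintro rfl; rw [ih rfl]; simp [lab]
  have p1 : ∀ y g y', Pth mv lab y g y' → ∀ n v, y = some ⟨n, v⟩ →
      ∃ l : List Dir, y' = some ⟨n, l.foldl (S n).mv v⟩ ∧ mk ((S n).wd v l) = g := by
    intro y g y' p
    induction p with
    | nil => exact fun n v h => ⟨[], h, rfl⟩
    | cons y d _ ih =>
      rintro n v rfl
      obtain ⟨l, e1, e2⟩ := ih n ((S n).mv v d) rfl
      exact ⟨d :: l, e1, by rw [← e2]; rfl⟩
  have p2 : ∀ n v g, Pth mv lab (some ⟨n, v⟩) g (some ⟨n, v⟩) → (S n).Cl v g := by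
    intro n v g p
    obtain ⟨l, e1, e2⟩ := p1 _ _ _ p n v rfl
    exact ⟨l, (eq_of_heq (Sigma.mk.inj (Option.some.inj e1)).2).symm, e2⟩
  obtain ⟨A, hA1, hA2⟩ := exists_pot h1 h2 lay h3 (by
    rintro (_ | ⟨n, v⟩) (_ | ⟨i, z⟩) u α hl p q
    · exact p0 _ _ _ p rfl
    · exact p0 _ _ _ p rfl
    · have := p0 _ _ _ q rfl
      rwa [mul_assoc, inv_mul_eq_one, eq_comm, mul_eq_right] at this
    · have hni : n ≠ i := fun e => hl (by simp [lay, e])
      rcases lt_or_gt_of_ne hni with h | h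
      · have := conj_disj (hS n i h) _ u⁻¹ rfl z v _ (p2 _ _ _ q)
          (by convert p2 _ _ _ p using 1; group)
        rwa [mul_assoc, inv_mul_eq_one, eq_comm, mul_eq_right] at this
      · exact conj_disj (hS i n h) _ u rfl v z _ (p2 _ _ _ p) (p2 _ _ _ q))
  refine ⟨⟨Y, inferInstance, mv, lab, lay, none, A, rfl, h1, h2, ?_, h3, fun n => ?_,
    fun n => ⟨some ⟨n, ⟨0, (S n).pos⟩⟩, rfl⟩, ?_, ?_, hA1, hA2⟩⟩
  · rintro (_ | ⟨n, v⟩) d
    · simp [lab]
    · exact norm_mk_le
  · refine (Set.finite_range fun v : Fin (S n).N => (some ⟨n, v⟩ : Y)).subset ?_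
    rintro (_ | ⟨i, v⟩) h
    · exact absurd h (by rintro ⟨⟩)
    · obtain rfl : i = n := Option.some.inj h
      exact ⟨v, rfl⟩
  · rintro (_ | ⟨i, v⟩) n h a d
    · exact absurd h (by rintro ⟨⟩)
    · have := norm_step a ((S i).lt v d)
      change (a * mk [(S i).lt v d]).norm ≠ _
      omega
  · rintro (_ | ⟨i, v⟩) n h a d d' k k'
    · exact absurd h (by rintro ⟨⟩)
    · have e1 := ((norm_step a ((S i).lt v d)).resolve_left
        (by change (a * mk [(S i).lt v d]).norm < _ at k; omega)).2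
      have e2 := ((norm_step a ((S i).lt v d')).resolve_left
        (by change (a * mk [(S i).lt v d']).norm < _ at k'; omega)).2
      have e := congrArg iv (Option.mem_unique e1 e2)
      rw [iv_iv, iv_iv] at e
      exact Prod.ext (congrArg (fun x => x.1.1) e) (congrArg (fun x : Al × Bool => x.2) e)

end Crest.Agent.H5.LF
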