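import Crest.Agent.H5.LF.B

/-! Lipschitz-free spaces, part C: the flows (Ponzi schemes). -/

namespace Crest.Agent.H5.LF

open Finset

section
variable {Q : Type} [Group Q] (κ : G →* Q) (R : ℕ)

/-- near the identity -/
def Nr (q : Q) : Prop := ∃ g, κ g = q ∧ g.norm < R

open Classical in
/-- the short lift -/
noncomputable def U (q : Q) : G := if h : Nr κ R q then h.choose else 1

open Classical in
/-- truncated length -/
noncomputable def dd (q : Q) : ℕ := if Nr κ R q then (U κ R q).norm else R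

variable {κ R}

theorem U_spec {q : Q} (h : Nr κ R q) : κ (U κ R q) = q ∧ (U κ R q).norm < R := by
  rw [U, dif_pos h]; exact h.choose_spec

theorem dd_of_not {q : Q} (h : ¬ Nr κ R q) : dd κ R q = R := by rw [dd, if_neg h]

theorem dd_le (q : Q) : dd κ R q ≤ R := by
  by_cases h : Nr κ R q
  · rw [dd, if_pos h]; exact (U_spec h).2.le
  · exact (dd_of_not h).le

variable (hκ : ∀ g : G, g.norm ≤ 2 * R → κ g = 1 → g = 1)
include hκ

theorem U_eq {q : Q} (h : Nr κ R q) {g : G} (h1 : κ g = q) (h2 : g.norm ≤ R) : U κ R q = g := by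
  obtain ⟨e1, e2⟩ := U_spec h
  refine inv_mul_eq_one.1 (hκ _ ?_ (by rw [map_mul, map_inv, e1, h1, inv_mul_cancel]))
  have := FreeGroup.norm_mul_le (U κ R q)⁻¹ g
  rw [FreeGroup.norm_inv_eq] at this
  omega

theorem U_move {q : Q} {a b : G} (hab : a.norm + b.norm ≤ 1) (h : Nr κ R q)
    (h' : Nr κ R (κ a * q * κ b)) : U κ R (κ a * q * κ b) = a * U κ R q * b := by
  obtain ⟨e1, e2⟩ := U_spec h
  refine U_eq hκ h' (by rw [map_mul, map_mul, e1]) ?_
  have := FreeGroup.norm_mul_le (a * U κ R q) b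
  have := FreeGroup.norm_mul_le a (U κ R q)
  omega

theorem dd_move (q : Q) {a b : G} (hab : a.norm + b.norm ≤ 1) :
    dd κ R (κ a * q * κ b) ≤ dd κ R q + 1 := by
  by_cases h : Nr κ R q
  · have h1 := FreeGroup.norm_mul_le (a * U κ R q) b
    have h2 := FreeGroup.norm_mul_le a (U κ R q)
    by_cases h' : Nr κ R (κ a * q * κ b)
    · rw [dd, dd, if_pos h, if_pos h', U_move hκ hab h h']; omega
    · rw [dd_of_not h', dd, if_pos h]
      by_contra hc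
      exact h' ⟨a * U κ R q * b, by rw [map_mul, map_mul, (U_spec h).1], by omega⟩
  · have := dd_le (κ := κ) (R := R) (κ a * q * κ b)
    rw [dd_of_not h]; omega

theorem dd_move' (q : Q) {a b : G} (hab : a.norm + b.norm ≤ 1) :
    dd κ R q ≤ dd κ R (κ a * q * κ b) + 1 := by
  have := dd_move hκ (κ a * q * κ b) (a := a⁻¹) (b := b⁻¹)
    (by rwa [FreeGroup.norm_inv_eq, FreeGroup.norm_inv_eq])
  rwa [map_inv, map_inv, show (κ a)⁻¹ * (κ a * q * κ b) * (κ b)⁻¹ = q by group] at this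

theorem dd_one (hR : 0 < R) : dd κ R 1 = 0 := by
  have h : Nr κ R 1 := ⟨1, map_one _, by simpa using hR⟩
  rw [dd, if_pos h, U_eq hκ h (map_one _) (by simp), FreeGroup.norm_one]

end

theorem abs_sum_le {ι : Type} {s : Finset ι} (hs : s.card ≤ 1) {f : ι → ℝ} {c : ℝ} (hc : 0 ≤ c)
    (h : ∀ i ∈ s, |f i| ≤ c) : |∑ i ∈ s, f i| ≤ c := by
  refine (abs_sum_le_sum_abs _ _).trans ((sum_le_card_nsmul _ _ c h).trans ?_)
  rw [nsmul_eq_mul]
  exact mul_le_of_le_one_left hc (by exact_mod_cast hs)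

section
variable (S : Sys) {Q : Type} [Group Q] (κ : G →* Q) (ρ R : ℕ)

/-- a step in the cover -/
def step (x : S.Y × Q) (d : Dir) : S.Y × Q := (S.mv x.1 d, x.2 * κ (S.lab x.1 d))

theorem step_step (x : S.Y × Q) (d : Dir) : step S κ (step S κ x d) (iv d) = x := by
  simp [step, S.mv_mv, S.lab_iv]

/-- the bump function -/
noncomputable def th (q : Q) : ℝ := max 0 (1 - (dd κ R q : ℝ) / ρ)

/-- incoming directions -/
def In (x y : S.Y × Q) (d : Dir) : Prop := Nr κ R (x.2⁻¹ * y.2) ∧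
  (S.A x.1 y.1 (U κ R (x.2⁻¹ * y.2)) * S.lab x.1 d).norm < (S.A x.1 y.1 (U κ R (x.2⁻¹ * y.2))).norm

open Classical in
/-- the set of incoming directions -/
noncomputable def Ins (x y : S.Y × Q) : Finset Dir := univ.filter (In S κ R x y)

/-- the amount sent to every child -/
noncomputable def X : ℕ → S.Y × Q → S.Y × Q → ℝ
  | 0, _, _ => 0
  | j + 1, x, y => (th κ ρ R (x.2⁻¹ * y.2) + ∑ d ∈ Ins S κ R x y, X j (step S κ x d) y) /
      (4 - (Ins S κ R x y).card)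

/-- the flow -/
noncomputable def Fl (J : ℕ) (x : S.Y × Q) (d : Dir) (y : S.Y × Q) : ℝ :=
  if d ∈ Ins S κ R x y then -X S κ ρ R J (step S κ x d) y else X S κ ρ R J x y

variable {S κ ρ R}

theorem th_nonneg (q : Q) : 0 ≤ th κ ρ R q := le_max_left _ _

theorem th_le (q : Q) : th κ ρ R q ≤ 1 :=
  max_le zero_le_one (sub_le_self _ (by positivity))

theorem th_zero (hρ : 0 < ρ) {q : Q} (h : ρ ≤ dd κ R q) : th κ ρ R q = 0 := by
  refine max_eq_left (sub_nonpos.2 ?_)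
  rw [le_div_iff₀ (by exact_mod_cast hρ), one_mul]; exact_mod_cast h

theorem rel_left (x y : S.Y × Q) (d : Dir) :
    (step S κ x d).2⁻¹ * y.2 = κ (S.lab x.1 d)⁻¹ * (x.2⁻¹ * y.2) * κ 1 := by
  simp [step, mul_assoc]

theorem rel_right (x y : S.Y × Q) (d : Dir) :
    x.2⁻¹ * (step S κ y d).2 = κ 1 * (x.2⁻¹ * y.2) * κ (S.lab y.1 d) := by
  simp [step, mul_assoc]

theorem nl (S : Sys) (y : S.Y) (d : Dir) : (S.lab y d)⁻¹.norm + (1 : G).norm ≤ 1 := by
  simpa using S.norm_lab y d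

theorem nr (S : Sys) (y : S.Y) (d : Dir) : (1 : G).norm + (S.lab y d).norm ≤ 1 := by
  simpa using S.norm_lab y d

theorem card_Ins {n : ℕ} {x : S.Y × Q} (hx : S.lay x.1 = some n) (y : S.Y × Q) :
    (Ins S κ R x y).card ≤ 1 := by
  rw [card_le_one]
  intro d hd d' hd'
  simp only [Ins, mem_filter, mem_univ, true_and] at hd hd'
  exact S.uniq _ n hx _ d d' hd.2 hd'.2

theorem div_bd {n : ℕ} {x : S.Y × Q} (hx : S.lay x.1 = some n) (y : S.Y × Q) {a c : ℝ}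
    (h : |a| ≤ 3 * c) : |a / (4 - (Ins S κ R x y).card)| ≤ c := by
  have h1 : ((Ins S κ R x y).card : ℝ) ≤ 1 := by exact_mod_cast card_Ins hx y
  have h0 : 0 ≤ c := by have := abs_nonneg a; linarith
  rw [abs_div, abs_of_pos (by linarith : (0 : ℝ) < 4 - (Ins S κ R x y).card),
    div_le_iff₀ (by linarith)]
  nlinarith

theorem lay_step {n : ℕ} {x : S.Y × Q} (hx : S.lay x.1 = some n) (d : Dir) :
    S.lay (step S κ x d).1 = some n := (S.lay_mv _ _).trans hx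

theorem X_bd {n : ℕ} (y : S.Y × Q) : ∀ (j : ℕ) (x : S.Y × Q), S.lay x.1 = some n →
    |X S κ ρ R j x y| ≤ 1 / 2
  | 0, _, _ => by simp [X]
  | j + 1, x, hx => by
    refine div_bd hx y ((abs_add_le _ _).trans ?_)
    have h1 := abs_sum_le (card_Ins (κ := κ) (R := R) hx y) (c := 1 / 2) (by norm_num)
      fun d _ => X_bd y j (step S κ x d) (lay_step hx d)
    have h2 := th_le (κ := κ) (ρ := ρ) (R := R) (x.2⁻¹ * y.2)
    rw [abs_of_nonneg (th_nonneg _)]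
    linarith

theorem X_diff {n : ℕ} (y : S.Y × Q) : ∀ (j : ℕ) (x : S.Y × Q), S.lay x.1 = some n →
    |X S κ ρ R j x y - X S κ ρ R (j + 1) x y| ≤ (1 / 3) ^ j
  | 0, x, hx => by
    have := X_bd (κ := κ) (ρ := ρ) (R := R) y 1 x hx
    rw [X, zero_sub, abs_neg]; simp only [zero_add, pow_zero]; linarith
  | j + 1, x, hx => by
    rw [X, X, ← sub_div, add_sub_add_left_eq_sub, ← sum_sub_distrib]
    refine div_bd hx y ?_
    rw [pow_succ, mul_comm, mul_assoc, show (1 / 3 * 3 : ℝ) = 1 by norm_num, mul_one]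
    exact abs_sum_le (card_Ins hx y) (by positivity) fun d _ => X_diff y j _ (lay_step hx d)

theorem Fl_bd {n J : ℕ} {x : S.Y × Q} (hx : S.lay x.1 = some n) (d : Dir) (y : S.Y × Q) :
    |Fl S κ ρ R J x d y| ≤ 1 / 2 := by
  unfold Fl
  split_ifs
  · rw [abs_neg]; exact X_bd y J _ (lay_step hx d)
  · exact X_bd y J _ hx

theorem Fl_div {n j : ℕ} {x : S.Y × Q} (hx : S.lay x.1 = some n) (y : S.Y × Q) :
    |th κ ρ R (x.2⁻¹ * y.2) - ∑ d, Fl S κ ρ R (j + 1) x d y| ≤ (1 / 3) ^ j := by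
  have h1 : ((Ins S κ R x y).card : ℝ) ≤ 1 := by exact_mod_cast card_Ins hx y
  have e : ∑ d, Fl S κ ρ R (j + 1) x d y = (4 - (Ins S κ R x y).card) * X S κ ρ R (j + 1) x y -
      ∑ d ∈ Ins S κ R x y, X S κ ρ R (j + 1) (step S κ x d) y := by
    simp only [Fl]
    rw [sum_ite, filter_mem_eq_inter, univ_inter, sum_neg_distrib, sum_const, nsmul_eq_mul,
      filter_notMem_eq_sdiff, ← compl_eq_univ_sdiff, card_compl,
      Nat.cast_sub (card_le_univ _)]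
    simp only [Fintype.card_prod, Fintype.card_fin, Fintype.card_bool]
    push_cast; ring
  rw [e, X, mul_div_cancel₀ _ (by linarith), add_sub_assoc, sub_add_cancel_left, abs_neg,
    ← sum_sub_distrib]
  exact abs_sum_le (card_Ins hx y) (by positivity) fun d _ => X_diff y j _ (lay_step hx d)

variable (hκ : ∀ g : G, g.norm ≤ 2 * R → κ g = 1 → g = 1) (hρ : 0 < ρ)
include hκ hρ

theorem th_right (x y : S.Y × Q) (e : Dir) :
    |th κ ρ R (x.2⁻¹ * (step S κ y e).2) - th κ ρ R (x.2⁻¹ * y.2)| ≤ 1 / ρ := by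
  have h1 := dd_move hκ (x.2⁻¹ * y.2) (nr S y.1 e)
  have h2 := dd_move' hκ (x.2⁻¹ * y.2) (nr S y.1 e)
  rw [← rel_right] at h1 h2
  unfold th
  rw [max_comm, max_comm (0 : ℝ)]
  refine (abs_max_sub_max_le_abs _ _ _).trans ?_
  rw [sub_sub_sub_cancel_left, ← sub_div, abs_div, Nat.abs_cast]
  gcongr
  rw [abs_le]
  have h1' : (dd κ R (x.2⁻¹ * (step S κ y e).2) : ℝ) ≤ dd κ R (x.2⁻¹ * y.2) + 1 := by
    exact_mod_cast h1
  have h2' : (dd κ R (x.2⁻¹ * y.2) : ℝ) ≤ dd κ R (x.2⁻¹ * (step S κ y e).2) + 1 := by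
    exact_mod_cast h2
  constructor <;> linarith

theorem X_zero (y : S.Y × Q) : ∀ (j : ℕ) (x : S.Y × Q), ρ + j ≤ dd κ R (x.2⁻¹ * y.2) →
    X S κ ρ R j x y = 0
  | 0, _, _ => rfl
  | j + 1, x, h => by
    rw [X, th_zero hρ (by omega), sum_eq_zero, add_zero, zero_div]
    intro d _
    have h2 := dd_move' hκ (x.2⁻¹ * y.2) (nl S x.1 d)
    rw [← rel_left] at h2
    exact X_zero y j _ (by omega)

omit hρ in
theorem Ins_right {x y : S.Y × Q} (hl : S.lay x.1 ≠ S.lay y.1) (e : Dir)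
    (h : Nr κ R (x.2⁻¹ * y.2)) (h' : Nr κ R (x.2⁻¹ * (step S κ y e).2)) :
    Ins S κ R x (step S κ y e) = Ins S κ R x y := by
  have hU : U κ R (x.2⁻¹ * (step S κ y e).2) = U κ R (x.2⁻¹ * y.2) * S.lab y.1 e := by
    rw [rel_right] at h' ⊢
    rw [U_move hκ (nr S y.1 e) h h', one_mul]
  ext d
  simp only [Ins, mem_filter, mem_univ, true_and, In, h, h', hU]
  rw [show (step S κ y e).1 = S.mv y.1 e from rfl, S.A_right _ _ _ _ hl]

omit hρ in
theorem far_right {x y : S.Y × Q} (e : Dir)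
    (h : ¬ (Nr κ R (x.2⁻¹ * y.2) ∧ Nr κ R (x.2⁻¹ * (step S κ y e).2))) :
    R ≤ dd κ R (x.2⁻¹ * y.2) + 1 ∧ R ≤ dd κ R (x.2⁻¹ * (step S κ y e).2) + 1 := by
  have h1 := dd_move hκ (x.2⁻¹ * y.2) (nr S y.1 e)
  have h2 := dd_move' hκ (x.2⁻¹ * y.2) (nr S y.1 e)
  rw [← rel_right] at h1 h2
  rcases not_and_or.1 h with h | h <;> have := dd_of_not h <;> omega

theorem X_right {n : ℕ} {y : S.Y × Q} (hy : S.lay y.1 ≠ some n) (e : Dir) :
    ∀ (j : ℕ) (x : S.Y × Q), ρ + j + 1 ≤ R → S.lay x.1 = some n →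
      |X S κ ρ R j x (step S κ y e) - X S κ ρ R j x y| ≤ 1 / ρ
  | 0, _, _, _ => by simp [X]
  | j + 1, x, hj, hx => by
    by_cases h : Nr κ R (x.2⁻¹ * y.2) ∧ Nr κ R (x.2⁻¹ * (step S κ y e).2)
    · rw [X, X, Ins_right hκ (by rw [hx]; exact hy.symm) e h.1 h.2, ← sub_div, add_sub_add_comm,
        ← sum_sub_distrib]
      refine div_bd hx y ((abs_add_le _ _).trans ?_)
      have h1 := th_right hκ hρ x y e
      have h2 := abs_sum_le (card_Ins (κ := κ) (R := R) hx y) (c := 1 / ρ) (by positivity)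
        fun d _ => X_right hy e j (step S κ x d) (by omega) (lay_step hx d)
      have h3 : (0 : ℝ) ≤ 1 / ρ := by positivity
      linarith
    · obtain ⟨h1, h2⟩ := far_right hκ e h
      rw [X_zero hκ hρ _ _ _ (by omega), X_zero hκ hρ _ _ _ (by omega)]
      simp

theorem Fl_far {J : ℕ} (hR : ρ + J + 2 ≤ R) {x y : S.Y × Q} (h : R ≤ dd κ R (x.2⁻¹ * y.2) + 1)
    (d : Dir) : Fl S κ ρ R J x d y = 0 := by
  have h2 := dd_move' hκ (x.2⁻¹ * y.2) (nl S x.1 d)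
  rw [← rel_left] at h2
  unfold Fl
  rw [X_zero hκ hρ _ _ _ (by omega), X_zero hκ hρ _ _ _ (by omega)]
  simp

theorem Fl_right {n J : ℕ} (hR : ρ + J + 2 ≤ R) {x y : S.Y × Q} (hx : S.lay x.1 = some n)
    (hy : S.lay y.1 ≠ some n) (d e : Dir) :
    |Fl S κ ρ R J x d (step S κ y e) - Fl S κ ρ R J x d y| ≤ 1 / ρ := by
  by_cases h : Nr κ R (x.2⁻¹ * y.2) ∧ Nr κ R (x.2⁻¹ * (step S κ y e).2)
  · unfold Fl
    rw [Ins_right hκ (by rw [hx]; exact hy.symm) e h.1 h.2]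
    split_ifs
    · rw [neg_sub_neg, abs_sub_comm]
      exact X_right hκ hρ hy e J _ (by omega) (lay_step hx d)
    · exact X_right hκ hρ hy e J _ (by omega) hx
  · obtain ⟨h1, h2⟩ := far_right hκ e h
    rw [Fl_far hκ hρ hR h1, Fl_far hκ hρ hR h2]
    simp

theorem Fl_anti {n J : ℕ} (hR : ρ + J + 2 ≤ R) {x y : S.Y × Q} (hx : S.lay x.1 = some n)
    (hy : S.lay y.1 ≠ some n) (d : Dir) :
    Fl S κ ρ R J (step S κ x d) (iv d) y = -Fl S κ ρ R J x d y := by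
  by_cases h : Nr κ R (x.2⁻¹ * y.2) ∧ Nr κ R ((step S κ x d).2⁻¹ * y.2)
  · have hU : U κ R ((step S κ x d).2⁻¹ * y.2) = (S.lab x.1 d)⁻¹ * U κ R (x.2⁻¹ * y.2) := by
      have h2 := h.2
      rw [rel_left] at h2 ⊢
      rw [U_move hκ (nl S x.1 d) h.1 h2, mul_one]
    have key : iv d ∈ Ins S κ R (step S κ x d) y ↔ d ∉ Ins S κ R x y := by
      simp only [Ins, mem_filter, mem_univ, true_and, In, h.1, h.2, hU]
      rw [show (step S κ x d).1 = S.mv x.1 d from rfl,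
        S.A_left _ _ _ _ (by rw [hx]; exact hy.symm), S.lab_iv, mul_inv_cancel_right]
      have := S.ne_norm _ n hx (S.A x.1 y.1 (U κ R (x.2⁻¹ * y.2))) d
      omega
    unfold Fl
    rw [step_step]
    by_cases hd : d ∈ Ins S κ R x y
    · rw [if_neg (fun k => key.1 k hd), if_pos hd, neg_neg]
    · rw [if_pos (key.2 hd), if_neg hd]
  · have h1 := dd_move hκ (x.2⁻¹ * y.2) (nl S x.1 d)
    have h2 := dd_move' hκ (x.2⁻¹ * y.2) (nl S x.1 d)
    rw [← rel_left] at h1 h2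
    have : R ≤ dd κ R (x.2⁻¹ * y.2) + 1 ∧ R ≤ dd κ R ((step S κ x d).2⁻¹ * y.2) + 1 := by
      rcases not_and_or.1 h with h | h <;> have := dd_of_not h <;> omega
    rw [Fl_far hκ hρ hR this.1, Fl_far hκ hρ hR this.2, neg_zero]

end

/-- the data of a block -/
structure Blk (S : Sys) (ρ j : ℕ) where
  N : ℕ
  κ : G →* Equiv.Perm (Fin N)
  θ : Equiv.Perm (Fin N) → ℝ
  F : S.Y × Equiv.Perm (Fin N) → Dir → S.Y × Equiv.Perm (Fin N) → ℝ
  θ_one : θ 1 = 1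
  θ_nonneg : ∀ q, 0 ≤ θ q
  θ_le : ∀ q, θ q ≤ 1
  θ_step : ∀ (x y : S.Y × Equiv.Perm (Fin N)) e,
    |θ (x.2⁻¹ * (step S κ y e).2) - θ (x.2⁻¹ * y.2)| ≤ 1 / ρ
  F_bd : ∀ n x d y, S.lay x.1 = some n → |F x d y| ≤ 1 / 2
  F_div : ∀ n x y, S.lay x.1 = some n → |θ (x.2⁻¹ * y.2) - ∑ d, F x d y| ≤ (1 / 3) ^ j
  F_step : ∀ n x y d e, S.lay x.1 = some n → S.lay y.1 ≠ some n →
    |F x d (step S κ y e) - F x d y| ≤ 1 / ρ
  F_anti : ∀ n x y d, S.lay x.1 = some n → S.lay y.1 ≠ some n →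
    F (step S κ x d) (iv d) y = -F x d y

theorem exists_blk (S : Sys) (ρ j : ℕ) (hρ : 0 < ρ) : Nonempty (Blk S ρ j) := by
  obtain ⟨N, κ, hκ⟩ := exists_quot Al (2 * (ρ + (j + 1) + 2))
  exact ⟨⟨N, κ, th κ ρ (ρ + (j + 1) + 2), Fl S κ ρ (ρ + (j + 1) + 2) (j + 1),
    by simp [th, dd_one hκ], th_nonneg, th_le, th_right hκ hρ,
    fun n x d y hx => Fl_bd hx d y, fun n x y hx => Fl_div hx y,
    fun n x y d e hx hy => Fl_right hκ hρ le_rfl hx hy d e,
    fun n x y d hx hy => Fl_anti hκ hρ le_rfl hx hy d⟩⟩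

end Crest.Agent.H5.LF
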