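import Crest.Prelude.Def_LipschitzFree

/-! Lipschitz-free spaces, part D: general facts. -/

namespace Crest.Agent.H5.LF

open Crest.AnalysisR

instance pm (P : PointedMetric) : MetricSpace P.M := P.metric

variable {P : PointedMetric}

/-- molecules in the free space -/
noncomputable def io (P : PointedMetric) : (P.M →₀ ℝ) →ₗ[ℝ] P.FreeSpace :=
  (UniformSpace.Completion.toComplL : P.Mol →L[ℝ] P.FreeSpace).toLinearMap

/-- point masses -/
noncomputable def dl (x : P.M) : P.FreeSpace := io P (Finsupp.single x 1)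

theorem dense_io : DenseRange (io P) := UniformSpace.Completion.denseRange_coe (α := P.Mol)

theorem norm_io (a : P.M →₀ ℝ) : ‖io P a‖ = P.freeNorm a :=
  UniformSpace.Completion.norm_coe (E := P.Mol) a

theorem norm_io_le {a : P.M →₀ ℝ} {c : ℝ} (h : ∀ f : P.M → ℝ, f P.base = 0 →
    (∀ x y, |f x - f y| ≤ dist x y) → |Finsupp.linearCombination ℝ f a| ≤ c) : ‖io P a‖ ≤ c := by
  rw [norm_io]
  refine ciSup_le fun f => h f.1 f.2.2 fun x y => ?_
  simpa [Real.dist_eq] using f.2.1.dist_le_mul x y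

theorem le_norm_io (a : P.M →₀ ℝ) {f : P.M → ℝ} {K : ℝ} (hK : 0 < K) (h0 : f P.base = 0)
    (h : ∀ x y, |f x - f y| ≤ K * dist x y) :
    |Finsupp.linearCombination ℝ f a| ≤ K * ‖io P a‖ := by
  have := le_ciSup (P.freeNorm_bddAbove a) ⟨fun x => K⁻¹ * f x,
    LipschitzWith.of_dist_le_mul fun x y => by
      rw [Real.dist_eq, ← mul_sub, abs_mul, abs_of_pos (inv_pos.2 hK), NNReal.coe_one, one_mul,
        inv_mul_le_iff₀ hK]
      exact h x y, by simp [h0]⟩
  have e : P.pairing a (fun x => K⁻¹ * f x) = K⁻¹ * Finsupp.linearCombination ℝ f a := by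
    rw [Finsupp.linearCombination_apply, Finsupp.mul_sum]
    exact Finsupp.sum_congr fun _ _ => by rw [smul_eq_mul]; ring
  rw [norm_io, ← inv_mul_le_iff₀ hK]
  refine le_trans (le_of_eq ?_) this
  simp only [e, abs_mul, abs_of_pos (inv_pos.2 hK)]

theorem norm_dl_sub (x y : P.M) : ‖dl x - dl y‖ ≤ dist x y := by
  rw [dl, dl, ← map_sub]
  exact norm_io_le fun f _ h => by simpa using h x y

theorem dl_base : dl P.base = 0 :=
  norm_le_zero_iff.1 (norm_io_le fun f h _ => by simp [h])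

theorem norm_dl (x : P.M) : ‖dl x‖ ≤ dist x P.base := by
  simpa [dl_base] using norm_dl_sub x P.base

section
variable {F : Type} [NormedAddCommGroup F] [NormedSpace ℝ F]

theorem apply_io (T : P.FreeSpace →L[ℝ] F) (a : P.M →₀ ℝ) :
    T (io P a) = a.sum fun x r => r • T (dl x) := by
  conv_lhs => rw [← a.sum_single, map_finsuppSum, map_finsuppSum]
  refine Finsupp.sum_congr fun x _ => ?_
  rw [dl, ← map_smul, ← map_smul, Finsupp.smul_single_one]

theorem io_congr {T T' : P.FreeSpace →L[ℝ] F} {a : P.M →₀ ℝ}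
    (h : ∀ x ∈ a.support, T (dl x) = T' (dl x)) : T (io P a) = T' (io P a) := by
  rw [apply_io, apply_io]
  exact Finsupp.sum_congr fun x hx => by rw [h x hx]

theorem ext_dl {T T' : P.FreeSpace →L[ℝ] F} (h : ∀ x, T (dl x) = T' (dl x)) : T = T' :=
  ContinuousLinearMap.ext fun z => dense_io.induction_on (p := fun z => T z = T' z) z
    (isClosed_eq T.continuous T'.continuous) fun _ => io_congr fun x _ => h x

theorem exists_lift [CompleteSpace F] (φ : P.M → F) {K : ℝ} (hK : 0 < K) (h0 : φ P.base = 0)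
    (h : ∀ x y, ‖φ x - φ y‖ ≤ K * dist x y) :
    ∃ T : P.FreeSpace →L[ℝ] F, (∀ x, T (dl x) = φ x) ∧ ∀ z, ‖T z‖ ≤ K * ‖z‖ := by
  have key : ∀ a, ‖Finsupp.linearCombination ℝ φ a‖ ≤ K * ‖io P a‖ := by
    intro a
    obtain ⟨g, g1, g2⟩ := exists_dual_vector'' ℝ (Finsupp.linearCombination ℝ φ a)
    have := le_norm_io a (f := fun x => g (φ x)) hK (by simp [h0]) fun x y => by
      rw [← map_sub]
      exact (g.le_of_opNorm_le g1 _).trans (by rw [one_mul]; exact h x y)
    refine le_trans (le_trans (le_of_eq ?_) (le_abs_self _)) this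
    refine g2.symm.trans ?_
    simp [Finsupp.linearCombination_apply, map_finsuppSum]
  refine ⟨(Finsupp.linearCombination ℝ φ).extendOfNorm (io P), fun x => ?_,
    LinearMap.norm_extendOfNorm_apply_le dense_io K key⟩
  rw [dl, LinearMap.extendOfNorm_eq dense_io ⟨K, key⟩]
  simp

omit [NormedSpace ℝ F] in
theorem bdd_lip (h1 : ∀ x y : P.M, x ≠ y → 1 ≤ dist x y) {φ : P.M → F} {c : ℝ}
    (h : ∀ x, ‖φ x‖ ≤ c) (x y : P.M) : ‖φ x - φ y‖ ≤ 2 * c * dist x y := by
  have hc : 0 ≤ c := (norm_nonneg _).trans (h x)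
  by_cases e : x = y
  · simp [e]
  · have := h1 x y e
    have := norm_sub_le (φ x) (φ y)
    nlinarith [h x, h y]

end

theorem exists_net {K : Set P.FreeSpace} (hK : IsCompact K) {ε : ℝ} (hε : 0 < ε) :
    ∃ A : Finset P.M, ∀ z ∈ K, ∃ a : P.M →₀ ℝ, a.support ⊆ A ∧ ‖z - io P a‖ ≤ ε := by
  classical
  obtain ⟨t, ht⟩ := hK.elim_finite_subcover (fun a => Metric.ball (io P a) ε)
    (fun _ => Metric.isOpen_ball) fun z _ => by
      obtain ⟨a, ha⟩ := dense_io.exists_dist_lt z hε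
      exact Set.mem_iUnion.2 ⟨a, ha⟩
  refine ⟨t.biUnion Finsupp.support, fun z hz => ?_⟩
  obtain ⟨a, ha, h⟩ := Set.mem_iUnion₂.1 (ht hz)
  exact ⟨a, Finset.subset_biUnion_of_mem _ ha, by
    rw [← dist_eq_norm]; exact (Metric.mem_ball.1 h).le⟩

theorem exists_net' (T : P.FreeSpace →L[ℝ] P.FreeSpace)
    (hT : FiniteDimensional ℝ (LinearMap.range T.toLinearMap)) (R : ℝ) {ε : ℝ} (hε : 0 < ε) :
    ∃ A : Finset P.M, ∀ z, ‖T z‖ ≤ R → ∃ a : P.M →₀ ℝ, a.support ⊆ A ∧ ‖T z - io P a‖ ≤ ε := by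
  have := FiniteDimensional.proper ℝ (LinearMap.range T.toLinearMap)
  obtain ⟨A, hA⟩ := exists_net ((isCompact_closedBall (0 : LinearMap.range T.toLinearMap) R).image
    continuous_subtype_val) hε
  exact ⟨A, fun z hz => hA _ ⟨⟨T z, z, rfl⟩, by simpa using hz, rfl⟩⟩

theorem hasAP (h1 : ∀ x y : P.M, x ≠ y → 1 ≤ dist x y)
    (h2 : ∀ A : Finset P.M, ∃ (B : Set P.M) (D : ℝ), ↑A ⊆ B ∧ (∀ x ∈ B, dist x P.base ≤ D) ∧
      ∀ x y, ‖B.indicator dl x - B.indicator dl y‖ ≤ dist x y) : HasAP P.FreeSpace := by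
  classical
  intro K hK ε hε
  obtain ⟨A, hA⟩ := exists_net hK (ε := ε / 4) (by positivity)
  obtain ⟨B, D, hB, hD, hL⟩ := h2 A
  obtain ⟨Q, Q1, Q2⟩ := exists_lift (B.indicator dl) one_pos
    (Set.indicator_apply_eq_zero.2 fun _ => dl_base) fun x y => by rw [one_mul]; exact hL x y
  have hC : 0 < |D| + 1 := by positivity
  obtain ⟨A', hA'⟩ := exists_net hK (ε := ε / 2 / (2 * (|D| + 1) + 1)) (by positivity)
  obtain ⟨R, R1, R2⟩ := exists_lift ((↑A' ∩ B : Set P.M).indicator dl) (K := 2 * (|D| + 1))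
    (by positivity) (Set.indicator_apply_eq_zero.2 fun _ => dl_base)
    (bdd_lip h1 fun x => by
      by_cases hx : x ∈ (↑A' ∩ B : Set P.M)
      · rw [Set.indicator_of_mem hx]
        linarith [norm_dl x, hD x hx.2, le_abs_self D]
      · rw [Set.indicator_of_notMem hx, norm_zero]; exact hC.le)
  refine ⟨R, ?_, fun z hz => ?_⟩
  · let V := Submodule.span ℝ (dl '' (A' : Set P.M))
    have : FiniteDimensional ℝ V :=
      FiniteDimensional.span_of_finite ℝ (A'.finite_toSet.image _)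
    refine Submodule.finiteDimensional_of_le (S₂ := V) ?_
    rintro _ ⟨z, rfl⟩
    refine dense_io.induction_on (p := fun z => R z ∈ V) z
      (V.closed_of_finiteDimensional.preimage R.continuous) fun a => ?_
    rw [apply_io]
    refine V.sum_mem fun x _ => V.smul_mem _ ?_
    rw [R1]
    by_cases hx : x ∈ (↑A' ∩ B : Set P.M)
    · rw [Set.indicator_of_mem hx]; exact Submodule.subset_span ⟨x, hx.1, rfl⟩
    · rw [Set.indicator_of_notMem hx]; exact V.zero_mem
  · obtain ⟨a, a1, a2⟩ := hA z hz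
    obtain ⟨b, b1, b2⟩ := hA' z hz
    have e1 : Q (io P a) = io P a := io_congr (T' := ContinuousLinearMap.id ℝ _) fun x hx => by
      rw [Q1, Set.indicator_of_mem (hB (a1 hx))]; rfl
    have e2 : R (io P b) = Q (io P b) := io_congr fun x hx => by
      rw [Q1, R1]
      by_cases h : x ∈ B
      · rw [Set.indicator_of_mem h, Set.indicator_of_mem (Set.mem_inter (b1 hx) h)]
      · rw [Set.indicator_of_notMem h, Set.indicator_of_notMem fun k => h k.2]
    have e : R z - z = R (z - io P b) - Q (z - io P b) + (Q (z - io P a) - (z - io P a)) := by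
      simp only [map_sub, e1, e2]; abel
    rw [le_div_iff₀ (by positivity)] at b2
    rw [e]
    have k1 := norm_add_le (R (z - io P b) - Q (z - io P b)) (Q (z - io P a) - (z - io P a))
    have k2 := norm_sub_le (R (z - io P b)) (Q (z - io P b))
    have k3 := norm_sub_le (Q (z - io P a)) (z - io P a)
    linarith [R2 (z - io P b), Q2 (z - io P b), Q2 (z - io P a)]

/-- a weighted connected graph -/
structure Gr where
  M : Type
  base : M
  E : M → M → ℝ → Prop
  one_le : ∀ x y c, E x y c → 1 ≤ c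
  con : ∀ x, x = base ∨ ∃ c, E x base c

namespace Gr
variable (Γ : Gr)

/-- admissible functions -/
def Adm (f : Γ.M → ℝ) : Prop := ∀ x y c, Γ.E x y c → |f x - f y| ≤ c

instance : Nonempty {f // Γ.Adm f} :=
  ⟨⟨0, fun x y c h => by simpa using zero_le_one.trans (Γ.one_le x y c h)⟩⟩

/-- the path distance -/
noncomputable def ds (x y : Γ.M) : ℝ := ⨆ f : {f // Γ.Adm f}, |f.1 x - f.1 y|

theorem le_ds {f : Γ.M → ℝ} (hf : Γ.Adm f) (x y : Γ.M) : |f x - f y| ≤ Γ.ds x y := by
  have key : ∀ x, ∃ c, ∀ f, Γ.Adm f → |f x - f Γ.base| ≤ c := fun x => by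
    rcases Γ.con x with rfl | ⟨c, h⟩
    · exact ⟨0, by simp⟩
    · exact ⟨c, fun f hf => hf _ _ _ h⟩
  obtain ⟨c, hc⟩ := key x
  obtain ⟨d, hd⟩ := key y
  refine le_ciSup (f := fun f : {f // Γ.Adm f} => |f.1 x - f.1 y|) ⟨c + d, ?_⟩ ⟨f, hf⟩
  rintro _ ⟨g, rfl⟩
  have := abs_sub_le (g.1 x) (g.1 Γ.base) (g.1 y)
  rw [abs_sub_comm (g.1 Γ.base)] at this
  linarith [hc _ g.2, hd _ g.2]

theorem one_le_ds {x y : Γ.M} (h : x ≠ y) : 1 ≤ Γ.ds x y := by
  classical
  have := Γ.le_ds (f := fun z => if z = x then 1 else 0) (fun a b c h => by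
    refine le_trans ?_ (Γ.one_le a b c h)
    dsimp only
    split_ifs <;> simp) x y
  simpa [h.symm] using this

/-- the pointed metric space of a graph -/
noncomputable def Pt : PointedMetric where
  M := Γ.M
  base := Γ.base
  metric :=
    { dist := Γ.ds
      dist_self := fun x => by simp [ds]
      dist_comm := fun x y => by simp only [ds, abs_sub_comm]
      dist_triangle := fun x y z => ciSup_le fun f =>
        (abs_sub_le _ _ _).trans (add_le_add (Γ.le_ds f.2 x y) (Γ.le_ds f.2 y z))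
      eq_of_dist_eq_zero := fun {x y} h => by
        by_contra k
        have := Γ.one_le_ds k
        change Γ.ds x y = 0 at h
        linarith }

theorem dist_le {x y : Γ.Pt.M} {c : ℝ} (h : Γ.E x y c) : dist x y ≤ c :=
  ciSup_le fun f => f.2 _ _ _ h

theorem one_le_dist (x y : Γ.Pt.M) (h : x ≠ y) : 1 ≤ dist x y := Γ.one_le_ds h

theorem lip {F : Type} [NormedAddCommGroup F] {φ : Γ.Pt.M → F} {K : ℝ} (hK : 0 < K)
    (h : ∀ x y c, Γ.E x y c → ‖φ x - φ y‖ ≤ K * c) (x y : Γ.Pt.M) :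
    ‖φ x - φ y‖ ≤ K * dist x y := by
  have := Γ.le_ds (f := fun z => K⁻¹ * ‖φ z - φ y‖) (fun a b c e => by
    rw [← mul_sub, abs_mul, abs_of_pos (inv_pos.2 hK), inv_mul_le_iff₀ hK]
    refine (abs_norm_sub_norm_le _ _).trans ?_
    rw [sub_sub_sub_cancel_right]
    exact h a b c e) x y
  rw [← inv_mul_le_iff₀ hK]
  refine le_trans (le_trans (le_of_eq ?_) (le_abs_self _)) this
  simp

end Gr

end Crest.Agent.H5.LF
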