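import Crest.Agent.H5.LF.C
import Crest.Agent.H5.LF.D

/-! Lipschitz-free spaces, part E: the example. -/

namespace Crest.Agent.H5.LF

open Crest.AnalysisR Finset

variable {S : Sys} (B : ∀ r : ℕ, Blk S ((r + 1) ^ 2) ((r + 1) ^ 3))

/-- the points of a block -/
abbrev Bp (r : ℕ) : Type := S.Y × Equiv.Perm (Fin (B r).N)

/-- the edges -/
inductive Ed : Option (Σ r, Bp B r) → Option (Σ r, Bp B r) → ℝ → Prop
  | h (r : ℕ) (x : Bp B r) (e : Dir) : Ed (some ⟨r, x⟩) (some ⟨r, step S (B r).κ x e⟩) 1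
  | v (r : ℕ) (x : Bp B r) : Ed (some ⟨r, x⟩) (some ⟨r, (S.o, x.2)⟩) (r + 1)
  | b (r : ℕ) (x : Bp B r) : Ed (some ⟨r, x⟩) none ((r + 1) ^ 2)

theorem one_le_r (r : ℕ) : (1 : ℝ) ≤ r + 1 := le_add_of_nonneg_left (Nat.cast_nonneg r)

/-- the graph -/
def Gm : Gr where
  M := Option (Σ r, Bp B r)
  base := none
  E := Ed B
  one_le := by
    rintro _ _ _ (_ | ⟨r, _⟩ | ⟨r, _⟩)
    · exact le_rfl
    · exact one_le_r r
    · exact one_le_pow₀ (one_le_r r)
  con := by
    rintro (_ | ⟨r, x⟩)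
    · exact Or.inl rfl
    · exact Or.inr ⟨_, .b r x⟩

/-- the space -/
noncomputable abbrev Sp : PointedMetric := (Gm B).Pt

/-- block points -/
def pt {r : ℕ} (x : Bp B r) : (Sp B).M := some ⟨r, x⟩

theorem pt_inj {r : ℕ} : Function.Injective (pt B (r := r)) := fun _ _ h =>
  eq_of_heq (Sigma.mk.inj (Option.some.inj h)).2

theorem sp_props : (Sp B).IsCountableSeparatedUnboundedNonproper := by
  have := S.cnt
  refine ⟨inferInstanceAs (Countable (Option (Σ r, Bp B r))), (Gm B).one_le_dist, fun h => ?_,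
    fun h => ?_⟩
  · obtain ⟨C, hC⟩ := Metric.isBounded_iff.1 h
    obtain ⟨r, hr⟩ := exists_nat_gt C
    have h1 := hC (Set.mem_univ (pt B (r := r) (S.o, 1))) (Set.mem_univ (Sp B).base)
    have h2 := (Gm B).le_ds (f := fun y => y.elim 0 fun p => (p.1 : ℝ)) (by
      rintro _ _ _ (_ | ⟨r, _⟩ | ⟨r, _⟩)
      · simp
      · simpa using zero_le_one.trans (one_le_r r)
      · simp only [Option.elim, sub_zero, Nat.abs_cast]
        nlinarith [Nat.cast_nonneg (α := ℝ) r]) (pt B (r := r) (S.o, 1)) none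
    have h3 : (r : ℝ) ≤ C := le_trans (by simp [pt]) (h2.trans h1)
    linarith
  · obtain ⟨t, ht⟩ := (isCompact_closedBall (Sp B).base 1).elim_finite_subcover
      (fun x => Metric.ball x 1) (fun _ => Metric.isOpen_ball)
      fun x _ => Set.mem_iUnion.2 ⟨x, Metric.mem_ball_self one_pos⟩
    choose y hy using S.ne
    refine Set.infinite_of_injective_forall_mem (s := (t : Set (Sp B).M))
      (f := fun n => pt B (r := 0) (y n, 1)) (fun n m e => ?_) (fun n => ?_) t.finite_toSet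
    · have := congrArg (fun x => S.lay x.1) (pt_inj B e)
      simpa [hy] using this
    · obtain ⟨x, hx, h⟩ := Set.mem_iUnion₂.1 (ht (a := pt B (r := 0) (y n, 1)) 
        (((Gm B).dist_le (Ed.b 0 (y n, 1))).trans (by simp)))
      by_contra k
      have := (Gm B).one_le_dist (pt B (r := 0) (y n, 1)) x fun e => k (e ▸ hx)
      exact absurd (Metric.mem_ball.1 h) (not_lt.2 this)

theorem sp_ap : HasAP (Sp B).FreeSpace := by
  refine hasAP (Gm B).one_le_dist fun A => ?_
  let lv : (Sp B).M → ℕ := fun y => Option.elim y 0 fun p => p.1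
  let N := A.sup lv
  refine ⟨{y | lv y ≤ N}, (N + 1) ^ 2, fun y hy => le_sup (f := lv) hy, ?_, fun x y => ?_⟩
  · rintro (_ | ⟨r, x⟩) h
    · exact (dist_self (Sp B).base).le.trans (by positivity)
    · refine ((Gm B).dist_le (Ed.b r x)).trans ?_
      have : (r : ℝ) ≤ N := Nat.cast_le.2 h
      gcongr
  · rw [← one_mul (dist x y)]
    refine (Gm B).lip one_pos (fun x y c h => ?_) x y
    rw [one_mul]
    have h0 := zero_le_one.trans ((Gm B).one_le x y c h)
    have h1 := (norm_dl_sub x y).trans ((Gm B).dist_le h)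
    have key : (lv x ≤ N ↔ lv y ≤ N) ∨ y = (Sp B).base := by
      cases h
      exacts [Or.inl Iff.rfl, Or.inl Iff.rfl, Or.inr rfl]
    by_cases hx : lv x ≤ N
    · rw [Set.indicator_of_mem (s := {y | lv y ≤ N}) hx,
        Set.indicator_of_mem (s := {y | lv y ≤ N})]
      · exact h1
      · rcases key with k | rfl
        exacts [k.1 hx, Nat.zero_le _]
    · rw [Set.indicator_of_notMem (s := {y | lv y ≤ N}) hx, Set.indicator_apply_eq_zero.2]
      · simpa using h0
      · rcases key with k | rfl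
        exacts [fun h => (hx (k.2 h)).elim, fun _ => dl_base]

variable {B} {r : ℕ}

/-- a functional represents a function on a block -/
def Rep (T : (Sp B).FreeSpace →L[ℝ] ℝ) (g : Bp B r → ℝ) : Prop :=
  (∀ x, T (dl (pt B x)) = g x) ∧ ∀ y, (∀ x : Bp B r, pt B x ≠ y) → T (dl y) = 0

theorem Rep.ext {T T' : (Sp B).FreeSpace →L[ℝ] ℝ} {g g' : Bp B r → ℝ} (h : Rep T g)
    (h' : Rep T' g') (e : ∀ x, g x = g' x) : T = T' := ext_dl fun y => by
  by_cases k : ∃ x : Bp B r, pt B x = y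
  · obtain ⟨x, rfl⟩ := k
    rw [h.1, h'.1, e]
  · push Not at k
    rw [h.2 y k, h'.2 y k]

theorem exists_rep (g : Bp B r → ℝ) {K : ℝ} (hK : 0 < K)
    (h1 : ∀ x e, |g (step S (B r).κ x e) - g x| ≤ K)
    (h2 : ∀ x, |g x - g (S.o, x.2)| ≤ K * (r + 1)) (h3 : ∀ x, |g x| ≤ K * (r + 1) ^ 2) :
    ∃ T, Rep T g ∧ ∀ z, |T z| ≤ K * ‖z‖ := by
  have e1 : ∀ x, Function.extend (pt B) g 0 (pt B x) = g x := (pt_inj B).extend_apply g 0
  have e2 : ∀ y, (∀ x : Bp B r, pt B x ≠ y) → Function.extend (pt B) g 0 y = 0 := fun y h =>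
    Function.extend_apply' g (0 : (Sp B).M → ℝ) y fun ⟨x, hx⟩ => h x hx
  have e3 := e2 (Sp B).base fun x h => by cases h
  have e4 : ∀ s (y : Bp B s), s ≠ r → Function.extend (pt B) g 0 (pt B y) = 0 := fun s y h =>
    e2 _ fun x e => h (Sigma.mk.inj (Option.some.inj e)).1.symm
  obtain ⟨T, T1, T2⟩ := exists_lift (Function.extend (pt B) g 0) hK e3 ((Gm B).lip hK (by
    intro x y c h
    have h0 := mul_nonneg hK.le (zero_le_one.trans ((Gm B).one_le x y c h))
    rcases h with ⟨s, x, e⟩ | ⟨s, x⟩ | ⟨s, x⟩ <;> by_cases k : s = r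
    · subst k
      exact (congrArg₂ (fun a b => |a - b|) (e1 x) (e1 _)).le.trans
        (by rw [abs_sub_comm, mul_one]; exact h1 x e)
    · exact (congrArg₂ (fun a b => |a - b|) (e4 s x k) (e4 s _ k)).le.trans (by simpa using h0)
    · subst k
      exact (congrArg₂ (fun a b => |a - b|) (e1 x) (e1 _)).le.trans (h2 x)
    · exact (congrArg₂ (fun a b => |a - b|) (e4 s x k) (e4 s _ k)).le.trans (by simpa using h0)
    · subst k
      exact (congrArg₂ (fun a b => |a - b|) (e1 x) e3).le.trans (by simpa using h3 x)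
    · exact (congrArg₂ (fun a b => |a - b|) (e4 s x k) e3).le.trans (by simpa using h0)))
  exact ⟨T, ⟨fun x => (T1 _).trans (e1 x), fun y h => (T1 _).trans (e2 y h)⟩, T2⟩

theorem exists_rep' (g : Bp B r → ℝ) {c : ℝ} (hc : 0 < c) (h : ∀ x, |g x| ≤ c) :
    ∃ T, Rep T g ∧ ∀ z, |T z| ≤ 2 * c * ‖z‖ := by
  have k : ∀ x y, |g x - g y| ≤ 2 * c := fun x y => by linarith [abs_sub (g x) (g y), h x, h y]
  have := one_le_r r
  exact exists_rep g (by positivity) (fun _ _ => k _ _) (fun x => (k _ _).trans (by nlinarith))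
    fun x => (h x).trans (by nlinarith [one_le_pow₀ (n := 2) this])

theorem sp_not_bap : ¬ HasBAP (Sp B).FreeSpace := by
  classical
  rintro ⟨L, hL⟩
  obtain ⟨r, hr⟩ := exists_nat_gt (10 * L)
  have hs := one_le_r r
  set s : ℝ := r + 1 with hs'
  have hs0 : 0 < s := by linarith
  obtain ⟨T, Tf, Tn, TK⟩ := hL _ (Set.finite_range fun q => dl (pt B (r := r) (S.o, q))).isCompact
    (1 / 8) (by norm_num)
  have hL0 : 0 ≤ L := (norm_nonneg _).trans Tn
  have Tb : ∀ z c, ‖z‖ ≤ c → ‖T z‖ ≤ L * c := fun z c h =>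
    (T.le_of_opNorm_le Tn z).trans (by gcongr)
  have Td : ∀ x : Bp B r, ‖T (dl (pt B x))‖ ≤ L * s ^ 2 := fun x =>
    Tb _ _ ((norm_dl _).trans ((Gm B).dist_le (Ed.b r x)))
  obtain ⟨A, hA⟩ := exists_net' T Tf (L * s ^ 2) (ε := 1 / 8) (by norm_num)
  obtain ⟨n, hn⟩ := Infinite.exists_notMem_finset
    (A.image fun y => Option.elim y 0 fun p => (S.lay p.2.1).getD 0)
  have hn' : ∀ x : Bp B r, pt B x ∈ A → S.lay x.1 ≠ some n := fun x hx e =>
    hn (mem_image.2 ⟨_, hx, by simp [pt, e]⟩)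
  have c1 : (((r + 1) ^ 2 : ℕ) : ℝ) = s ^ 2 := by push_cast; rfl
  have c2 : 1 / s ^ 2 ≤ 1 / s := one_div_le_one_div_of_le hs0 (by nlinarith)
  choose Θ Θ1 Θ2 using fun w : Bp B r => exists_rep (fun y => (B r).θ (w.2⁻¹ * y.2))
    (K := 1 / s ^ 2) (by positivity) (fun y e => c1 ▸ (B r).θ_step w y e)
    (fun y => by simp only [sub_self, abs_zero]; positivity) fun y => by
      rw [abs_of_nonneg ((B r).θ_nonneg _), one_div_mul_cancel (by positivity)]
      exact (B r).θ_le _
  choose Z Z1 Z2 using fun w : Bp B r => exists_rep'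
    (fun y => if S.lay y.1 = some n then (B r).θ (w.2⁻¹ * y.2) else 0) one_pos fun y => by
      split_ifs
      · rw [abs_of_nonneg ((B r).θ_nonneg _)]; exact (B r).θ_le _
      · simp
  let W := {x : Bp B r // S.lay x.1 = some n}
  have hb : ∀ (w : W) d (y : Bp B r),
      |if S.lay y.1 = some n then 0 else (B r).F w.1 d y| ≤ 1 / 2 := fun w d y => by
    split_ifs
    · simp
    · exact (B r).F_bd n _ _ _ w.2
  choose Φ Φ1 Φ2 using fun (w : W) d => exists_rep
    (fun y => if S.lay y.1 = some n then 0 else (B r).F w.1 d y) (K := 1 / s) (by positivity)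
    (fun y e => by
      rw [show S.lay (step S (B r).κ y e).1 = S.lay y.1 from S.lay_mv _ _]
      split_ifs with h
      · simp only [sub_self, abs_zero]; positivity
      · exact le_trans (c1 ▸ (B r).F_step n _ _ _ _ w.2 h) c2)
    (fun y => by
      rw [one_div_mul_cancel hs0.ne']
      exact (abs_sub _ _).trans (by linarith [hb w d y, hb w d (S.o, y.2)]))
    fun y => (hb w d y).trans (by rw [← hs', pow_two, ← mul_assoc, one_div_mul_cancel hs0.ne']
                                  linarith)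
  have c3 : ((1 : ℝ) / 3) ^ (r + 1) ^ 3 * s ^ 2 ≤ 1 / s := by
    have : ((r + 1) ^ 3 : ℕ) < 3 ^ (r + 1) ^ 3 := Nat.lt_pow_self (by norm_num)
    have h2 : s ^ 3 ≤ 3 ^ (r + 1) ^ 3 := by rw [hs']; exact_mod_cast this.le
    rw [one_div_pow, le_div_iff₀ hs0, mul_assoc, ← pow_succ, one_div_mul_eq_div,
      div_le_one (by positivity)]
    exact h2
  have low : ∀ w : W, 5 / 8 - 3 * (L / s) ≤ ∑ d, Φ w d (T (dl (pt B w.1))) := by
    intro w
    obtain ⟨H, H1, H2⟩ := exists_rep' (fun y : Bp B r => if S.lay y.1 = some n then 0 else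
      (B r).θ (w.1.2⁻¹ * y.2) - ∑ d, (B r).F w.1 d y) (c := (1 / 3) ^ (r + 1) ^ 3)
      (by positivity) fun y => by
        split_ifs
        · simp
        · exact (B r).F_div n _ _ w.2
    have e : Θ w.1 = H + Z w.1 + ∑ d, Φ w d := (Θ1 w.1).ext
      (g' := fun y => (B r).θ (w.1.2⁻¹ * y.2)) ⟨fun y => by
        simp only [_root_.add_apply, _root_.sum_apply, H1.1, (Z1 _).1,
          fun d => (Φ1 w d).1 y]
        split_ifs <;> simp, fun y h => by
        simp [H1.2 y h, (Z1 _).2 y h, fun d => (Φ1 w d).2 y h]⟩ fun _ => rfl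
    have k1 : |H (T (dl (pt B w.1)))| ≤ 2 * (L / s) := by
      refine (H2 _).trans ((mul_le_mul_of_nonneg_left (Td _) (by positivity)).trans ?_)
      have := mul_le_mul_of_nonneg_left c3 hL0
      rw [mul_one_div] at this
      linarith
    have k2 : |Z w.1 (T (dl (pt B w.1)))| ≤ 1 / 4 := by
      obtain ⟨a, a1, a2⟩ := hA _ (Td w.1)
      have : Z w.1 (io _ a) = 0 := io_congr (T' := 0) fun y hy => by
        by_cases k : ∃ x : Bp B r, pt B x = y
        · obtain ⟨x, rfl⟩ := k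
          exact ((Z1 _).1 x).trans (if_neg (hn' x (a1 hy)))
        · push Not at k
          exact (Z1 _).2 y k
      have h2 := Z2 w.1 (T (dl (pt B w.1)) - io _ a)
      rw [map_sub, this, sub_zero] at h2
      linarith
    have k3 := Θ2 w.1 (T (dl (pt B (S.o, w.1.2))) - dl (pt B (S.o, w.1.2)))
    have k4 := Θ2 w.1 (T (dl (pt B w.1) - dl (pt B (S.o, w.1.2))))
    have k5 := TK _ ⟨w.1.2, rfl⟩
    have k6 := Tb _ _ ((norm_dl_sub (pt B w.1) (pt B (S.o, w.1.2))).trans
      ((Gm B).dist_le (Ed.v r w.1)))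
    have k7 : 1 / s ^ 2 * (L * s) = L / s := by field_simp
    have k8 : 1 / s ^ 2 ≤ 1 := by rw [div_le_one (by positivity)]; nlinarith
    have k9 := k3.trans ((mul_le_mul k8 k5 (norm_nonneg _) zero_le_one))
    have k10 := k4.trans ((mul_le_mul_of_nonneg_left k6 (by positivity)).trans k7.le)
    simp only [map_sub, (Θ1 _).1, inv_mul_cancel, (B r).θ_one] at k9
    rw [map_sub, map_sub] at k10
    have e' := congrArg (fun Ψ : _ →L[ℝ] ℝ => Ψ (T (dl (pt B w.1)))) e
    simp only [_root_.add_apply, _root_.sum_apply] at e'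
    linarith [(abs_le.1 k1).2, (abs_le.1 k2).2, (abs_le.1 k9).1, (abs_le.1 k10).1]
  have : Finite W := by
    have := (S.fin n).to_subtype
    exact Finite.of_injective (β := {y | S.lay y = some n} × Equiv.Perm (Fin (B r).N))
      (fun x => (⟨x.1.1, x.2⟩, x.1.2)) fun x y e => Subtype.ext
        (Prod.ext (congrArg (fun p => p.1.1) e) (Prod.mk.inj e).2)
  have := Fintype.ofFinite W
  let σ : W × Dir → W × Dir := fun p => (⟨step S (B r).κ p.1.1 p.2, lay_step p.1.2 _⟩, iv p.2)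
  have hσ : Function.Involutive σ := fun p =>
    Prod.ext (Subtype.ext (step_step _ _ _ _)) (iv_iv _)
  let a : W × Dir → ℝ := fun p => Φ p.1 p.2 (T (dl (pt B p.1.1)))
  have up : ∀ p, a p + a (σ p) ≤ L / s := by
    intro p
    have e : Φ (σ p).1 (σ p).2 = -Φ p.1 p.2 := (Φ1 _ _).ext
      (g' := fun y => -if S.lay y.1 = some n then 0 else (B r).F p.1.1 p.2 y)
      ⟨fun y => by rw [_root_.neg_apply, (Φ1 _ _).1],
        fun y h => by rw [_root_.neg_apply, (Φ1 _ _).2 y h, neg_zero]⟩ fun y => by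
        split_ifs with h
        · simp
        · exact (B r).F_anti n _ _ _ p.1.2 h
    have k := Φ2 p.1 p.2 (T (dl (pt B p.1.1) - dl (pt B (σ p).1.1)))
    have k6 := Tb _ _ ((norm_dl_sub (pt B p.1.1) (pt B (σ p).1.1)).trans
      ((Gm B).dist_le (Ed.h r p.1.1 p.2)))
    have k7 := k.trans (mul_le_mul_of_nonneg_left k6 (by positivity))
    rw [map_sub, map_sub, mul_one, one_div_mul_eq_div] at k7
    simp only [a, e, _root_.neg_apply]
    linarith [(abs_le.1 k7).2]
  have s1 := sum_le_card_nsmul univ _ _ fun p _ => up p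
  have s2 := card_nsmul_le_sum univ _ _ fun w _ => low w
  rw [sum_add_distrib, show ∑ p, a (σ p) = ∑ p, a p from Equiv.sum_comp hσ.toPerm a,
    Fintype.sum_prod_type, nsmul_eq_mul, card_univ, Fintype.card_prod] at s1
  rw [nsmul_eq_mul, card_univ] at s2
  obtain ⟨y, hy⟩ := S.ne n
  have hW : (0 : ℝ) < Fintype.card W := by
    have : Nonempty W := ⟨⟨(y, 1), hy⟩⟩
    exact_mod_cast Fintype.card_pos
  have hls : L / s < 1 / 10 := by rw [div_lt_iff₀ hs0]; linarith
  simp only [Fintype.card_prod, Fintype.card_fin, Fintype.card_bool, a] at s1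
  push_cast at s1
  nlinarith

end Crest.Agent.H5.LF
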